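import Vale.Agent.P088.H4.Blk
import Vale.Agent.P088.H4.St7

open Manifold Set Vale.Agent.P088.B Vale.Agent.P088.B2 Vale.Agent.P088.B4
open scoped ContDiff

namespace Vale.Agent.Results.P088.FourthOrder

universe u

/-- Metrics and Yang-Mills connections which solve the same natural fourth order system
`g^{ab} ∇_a ∇_b R_{jk} = Φ_{jk}(g, Rm, ∇Ric, F, ∇F)`, in particular metrics with harmonic curvature,
(locally) Kähler metrics and Bach flat metrics with constant scalar curvature, are jointly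
determined, up to gauge, by the data on one boundary patch; the manifold is determined as well, and
the equations are needed only on open sets which meet the patch. -/
theorem result {n N : ℕ} [NeZero n] (hn : 3 ≤ n) (hN : 1 ≤ N) :
    -- one manifold
    (∀ {M : Type u} [TopologicalSpace M] [ChartedSpace (EuclideanHalfSpace n) M]
      [IsManifold (𝓡∂ n) ∞ M] [T2Space M] [CompactSpace M] [ConnectedSpace M]
      (Z : At n M) (_ : Z = at_ n M) (Γ O : Set M) (_ : IsOpen O) (_ : Γ = O ∩ bd Z)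
      (_ : Γ.Nonempty) (P Q : Pair Z N) (_ : Same univ univ P Q) (_ : SameData Γ P Q),
      UniqueRel Γ Γ id P Q) ∧
    -- two manifolds which share a boundary patch
    (∀ {M₁ M₂ : Type u} [TopologicalSpace M₁] [ChartedSpace (EuclideanHalfSpace n) M₁]
      [IsManifold (𝓡∂ n) ∞ M₁] [T2Space M₁] [CompactSpace M₁] [ConnectedSpace M₁]
      [TopologicalSpace M₂] [ChartedSpace (EuclideanHalfSpace n) M₂]
      [IsManifold (𝓡∂ n) ∞ M₂] [T2Space M₂] [CompactSpace M₂] [ConnectedSpace M₂]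
      (Z₁ : At n M₁) (_ : Z₁ = at_ n M₁) (Z₂ : At n M₂) (_ : Z₂ = at_ n M₂)
      (Γ₁ O₁ : Set M₁) (_ : IsOpen O₁) (_ : Γ₁ = O₁ ∩ bd Z₁) (_ : Γ₁.Nonempty)
      (Γ₂ O₂ : Set M₂) (_ : IsOpen O₂) (_ : Γ₂ = O₂ ∩ bd Z₂) (ψ : M₂ → M₁)
      (_ : Iden N Z₁ Z₂ Γ₁ Γ₂ ψ) (P : Pair Z₁ N) (Q : Pair Z₂ N)
      (_ : SameData₂ Γ₁ Γ₂ ψ P Q),
      -- the equations hold everywhere
      (Same univ univ P Q → UniqueRel Γ₁ Γ₂ ψ P Q) ∧
      -- the equations hold on open sets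
      ∀ (W₁ : Set M₁) (_ : IsOpen W₁) (W₂ : Set M₂) (_ : IsOpen W₂) (x : M₂)
        (_ : x ∈ Γ₂ ∩ W₂) (_ : ψ x ∈ W₁) (_ : Same W₁ W₂ P Q),
        (∃ W ⊆ W₂, IsOpen W ∧ (W ∩ Γ₂).Nonempty ∧ RelatedIn W Γ₁ Γ₂ ψ P Q) ∧
          (W₁ = univ → IsPreconnected W₂ → RelatedIn W₂ Γ₁ Γ₂ ψ P Q)) :=
  ⟨fun Z hZ Γ O hO hΓ hne P Q h hd => same_one blocks hn hN Z hZ Γ O hO hΓ hne P Q h hd,
   fun Z₁ hZ₁ Z₂ hZ₂ Γ₁ O₁ hO₁ hΓ₁ hne Γ₂ O₂ hO₂ hΓ₂ ψ hψ P Q hd =>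
    same_two blocks hn hN Z₁ hZ₁ Z₂ hZ₂ Γ₁ O₁ hO₁ hΓ₁ hne Γ₂ O₂ hO₂ hΓ₂ ψ hψ P Q hd⟩

end Vale.Agent.Results.P088.FourthOrder
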