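import Vale.Agent.P088.H5.L332
import Vale.Agent.P088.H5.R3_275

open Manifold Set Vale.Agent.P088.B Vale.Agent.P088.B7 Vale.Agent.P088.B10
open scoped ContDiff Matrix

namespace Vale.Agent.Results.P088.Joint

universe u

/-- Joint determination of the metric and the connection. -/
theorem result {n N : ℕ} [NeZero n] (hn : 3 ≤ n) (hN : 1 ≤ N) {M₁ M₂ : Type u}
    [TopologicalSpace M₁] [ChartedSpace (EuclideanHalfSpace n) M₁] [IsManifold (𝓡∂ n) ∞ M₁]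
    [T2Space M₁] [CompactSpace M₁] [ConnectedSpace M₁]
    [TopologicalSpace M₂] [ChartedSpace (EuclideanHalfSpace n) M₂] [IsManifold (𝓡∂ n) ∞ M₂]
    [T2Space M₂] [CompactSpace M₂] [ConnectedSpace M₂]
    (Z₁ : At n M₁) (hZ₁ : Z₁ = at_ n M₁) (Z₂ : At n M₂) (hZ₂ : Z₂ = at_ n M₂)
    (Γ₁ O₁ : Set M₁) (hO₁ : IsOpen O₁) (hΓ₁ : Γ₁ = O₁ ∩ bd Z₁) (hne : Γ₁.Nonempty)
    (Γ₂ O₂ : Set M₂) (hO₂ : IsOpen O₂) (hΓ₂ : Γ₂ = O₂ ∩ bd Z₂) :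
    -- one manifold
    (∀ P Q : Pair Z₁ N, SameData Γ₁ P Q → Hyp Γ₁ Γ₁ id P Q → UniqueRel Γ₁ Γ₁ id P Q) ∧
    -- two manifolds
    ∀ (ψ : M₂ → M₁) (_ : Iden N Z₁ Z₂ Γ₁ Γ₂ ψ) (P : Pair Z₁ N) (Q : Pair Z₂ N),
      SameData₂ Γ₁ Γ₂ ψ P Q → Hyp Γ₁ Γ₂ ψ P Q → UniqueRel Γ₁ Γ₂ ψ P Q :=
  hypL Vale.Agent.P088.B6.r2 Vale.Agent.P088.B6.r3 hn hN Z₁ hZ₁ Z₂ hZ₂ Γ₁ O₁ hO₁ hΓ₁ hne Γ₂ O₂
    hO₂ hΓ₂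

end Vale.Agent.Results.P088.Joint
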