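import Vale.Agent.P088.TM.Asm
import Vale.Agent.P088.TM.Br4
import Vale.Agent.P088.TM.Br5
import Vale.Agent.P088.H820.Fam

open Manifold Set Vale.Agent.P088.B Vale.Agent.P088.B2
open scoped ContDiff

namespace Vale.Agent.Results.P088.NaturalCoupling

universe u

/-- Metrics and Yang-Mills connections which solve `Ric = κ g + C(g, F)` for a natural coupling `C`
are jointly determined, up to gauge, by the data on one boundary patch; the manifold is determined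
as well, and the equations are needed only on open sets which meet the patch. -/
theorem result {n N : ℕ} [NeZero n] (hn : 3 ≤ n) (hN : 1 ≤ N) :
    -- one manifold
    (∀ {M : Type u} [TopologicalSpace M] [ChartedSpace (EuclideanHalfSpace n) M]
      [IsManifold (𝓡∂ n) ∞ M] [T2Space M] [CompactSpace M] [ConnectedSpace M]
      (Z : At n M) (_ : Z = at_ n M) (Γ O : Set M) (_ : IsOpen O) (_ : Γ = O ∩ bd Z)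
      (_ : Γ.Nonempty) (P Q : Pair Z N) (κ₁ κ₂ α β : ℝ) (_ : EYM κ₁ α β P) (_ : EYM κ₂ α β Q)
      (_ : SameData Γ P Q), Related Γ P Q) ∧
    -- two manifolds which share a boundary patch, and a natural coupling
    (∀ {M₁ M₂ : Type u} [TopologicalSpace M₁] [ChartedSpace (EuclideanHalfSpace n) M₁]
      [IsManifold (𝓡∂ n) ∞ M₁] [T2Space M₁] [CompactSpace M₁] [ConnectedSpace M₁]
      [TopologicalSpace M₂] [ChartedSpace (EuclideanHalfSpace n) M₂]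
      [IsManifold (𝓡∂ n) ∞ M₂] [T2Space M₂] [CompactSpace M₂] [ConnectedSpace M₂]
      (Z₁ : At n M₁) (_ : Z₁ = at_ n M₁) (Z₂ : At n M₂) (_ : Z₂ = at_ n M₂)
      (Γ₁ O₁ : Set M₁) (_ : IsOpen O₁) (_ : Γ₁ = O₁ ∩ bd Z₁) (_ : Γ₁.Nonempty)
      (Γ₂ O₂ : Set M₂) (_ : IsOpen O₂) (_ : Γ₂ = O₂ ∩ bd Z₂) (ψ : M₂ → M₁)
      (_ : Iden N Z₁ Z₂ Γ₁ Γ₂ ψ) (P : Pair Z₁ N) (Q : Pair Z₂ N)
      (_ : SameData₂ Γ₁ Γ₂ ψ P Q) (κ₁ κ₂ : ℝ)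
      (C : Matrix (Fin n) (Fin n) ℝ → (Fin n → Fin n → Matrix (Fin N) (Fin N) ℂ) →
        Matrix (Fin n) (Fin n) ℝ) (_ : Natural C),
      -- the equations hold everywhere
      (Coupled κ₁ C P → Coupled κ₂ C Q → κ₁ = κ₂ ∧ UniqueRel₂ Γ₁ Γ₂ ψ P Q) ∧
      -- the equations hold on open sets
      ∀ (W₁ : Set M₁) (_ : IsOpen W₁) (W₂ : Set M₂) (_ : IsOpen W₂) (x : M₂)
        (_ : x ∈ Γ₂ ∩ W₂) (_ : ψ x ∈ W₁) (_ : CoupledOn κ₁ C W₁ P) (_ : CoupledOn κ₂ C W₂ Q),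
        κ₁ = κ₂ ∧ (∃ W ⊆ W₂, IsOpen W ∧ (W ∩ Γ₂).Nonempty ∧ RelatedOn W Γ₁ Γ₂ ψ P Q) ∧
          (W₁ = univ → IsPreconnected W₂ → RelatedOn W₂ Γ₁ Γ₂ ψ P Q)) ∧
    -- the couplings `a(s) T + b(s) g`
    ∀ a b : ℝ → ℝ, LocallyLipschitz a → LocallyLipschitz b →
      Natural (n := n) (N := N) (pairCoupling a b) :=
  ⟨fun Z hZ Γ O hO hΓ hne P Q κ₁ κ₂ α β hP hQ hd =>
    final2 hn hN Z hZ Γ O hO hΓ hne P Q κ₁ κ₂ α β hP hQ hd,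
   fun Z₁ hZ₁ Z₂ hZ₂ Γ₁ O₁ hO₁ hΓ₁ hne Γ₂ O₂ hO₂ hΓ₂ ψ hψ P Q hd κ₁ κ₂ _ hC =>
    ⟨fun hP hQ => coupled_unique hn hN Z₁ hZ₁ Z₂ hZ₂ Γ₁ O₁ hO₁ hΓ₁ hne Γ₂ O₂ hO₂ hΓ₂ ψ hψ hC P Q
      κ₁ κ₂ hP hQ hd,
     fun W₁ hW₁ W₂ hW₂ x hx hx₁ hP hQ => open_coupled hn hN hC Z₁ hZ₁ Z₂ hZ₂ Γ₁ O₁ hO₁ hΓ₁ Γ₂ O₂
      hO₂ hΓ₂ ψ hψ P Q κ₁ κ₂ hd W₁ hW₁ W₂ hW₂ x hx hx₁ hP hQ⟩,
   fun _ _ ha hb => natural_pair ha hb⟩

end Vale.Agent.Results.P088.NaturalCoupling
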