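import Vale.Agent.P088.H5.Fin3_820

open Manifold Set Vale.Agent.P088.B Vale.Agent.P088.B2 Vale.Agent.P088.B8
open scoped ContDiff Matrix

namespace Vale.Agent.Results.P088.SmoothPairs

universe u

/-- Arbitrary smooth pairs: piecewise ordered metrics, holes, the trivial connection, parallel
sections (flat summands), reduction to the scalar problem. -/
theorem result {n N : ℕ} [NeZero n] (hn : 3 ≤ n) (hN : 1 ≤ N) :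
    -- one manifold
    (∀ {M : Type u} [TopologicalSpace M] [ChartedSpace (EuclideanHalfSpace n) M]
      [IsManifold (𝓡∂ n) ∞ M] [T2Space M] [CompactSpace M] [ConnectedSpace M]
      (Z : At n M) (_ : Z = at_ n M) (Γ O₀ : Set M) (_ : IsOpen O₀) (_ : Γ = O₀ ∩ bd Z)
      (_ : Γ.Nonempty) (P Q : Pair Z N) (_ : SameData Γ P Q),
      -- the conclusion of Q1
      (∀ P', Related Γ P P' →
        (PwLe univ Γ P' Q ∧ ∃ U K V, Hole U K V Γ P' Q ∧ PureOn V P'.A Z) ∨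
          ((Le univ P' Q ∨ Γ = bd Z ∧ PwLe univ Γ P' Q) ∧ ∃ U, GaugeBy U univ Γ 0 P'.A Z) →
            Related Γ P Q) ∧
      -- holes
      (∀ U K V, Hole U K V Γ P Q → (∀ x ∉ K, Q.g x = P.g x) ∧
        (∀ e, ParOn V P e → ∃ e', ParOn V Q e' ∧ ∀ x ∉ K, e x = U x *ᵥ e' x) ∧
        (PureOn V P.A Z → ∃ U', GaugeBy U' univ Γ P.A Q.A Z ∧ ∀ x ∉ K, U' x = U x)) ∧
      -- piecewise ordered metrics on an open set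
      (∀ O, IsOpen O → PwLe O Γ P Q → ∀ U, GaugeBy U O (O ∩ Γ) P.A Q.A Z →
        (∀ x ∈ closure O, Q.g x = P.g x) ∧
        ∀ f u u', Data Z (O ∩ Γ) f → Harm P f u → Harm Q f u' → ∀ x ∈ O, u x = U x *ᵥ u' x) ∧
      (∀ e e', Par P e → Par Q e' → e ≠ 0 → (∀ x ∈ Γ, e' x = e x) →
        ∀ O, IsOpen O → PwLe O Γ P Q → ∀ x ∈ closure O, Q.g x = P.g x) ∧
      -- parallel sections and the trivial connection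
      (Γ = bd Z ∨ Le univ P Q → (∀ e, Par P e → ∃ e', Par Q e' ∧ ∀ x ∈ Γ, e' x = e x) ∧
        ((∃ U, GaugeBy U univ Γ 0 P.A Z) → ∃ U, GaugeBy U univ Γ 0 Q.A Z)) ∧
      (Le univ P Q → (∃ e, Par P e ∧ e ≠ 0) → Q.g = P.g)) ∧
    -- two manifolds which share a boundary patch
    (∀ {M₁ M₂ : Type u} [TopologicalSpace M₁] [ChartedSpace (EuclideanHalfSpace n) M₁]
      [IsManifold (𝓡∂ n) ∞ M₁] [T2Space M₁] [CompactSpace M₁] [ConnectedSpace M₁]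
      [TopologicalSpace M₂] [ChartedSpace (EuclideanHalfSpace n) M₂]
      [IsManifold (𝓡∂ n) ∞ M₂] [T2Space M₂] [CompactSpace M₂] [ConnectedSpace M₂]
      (Z₁ : At n M₁) (_ : Z₁ = at_ n M₁) (Z₂ : At n M₂) (_ : Z₂ = at_ n M₂)
      (Γ₁ O₁ : Set M₁) (_ : IsOpen O₁) (_ : Γ₁ = O₁ ∩ bd Z₁) (_ : Γ₁.Nonempty)
      (Γ₂ O₂ : Set M₂) (_ : IsOpen O₂) (_ : Γ₂ = O₂ ∩ bd Z₂) (ψ : M₂ → M₁)
      (_ : Iden N Z₁ Z₂ Γ₁ Γ₂ ψ) (P : Pair Z₁ N) (Q : Pair Z₂ N)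
      (_ : SameData₂ Γ₁ Γ₂ ψ P Q),
      -- the conclusion of Q1
      (∀ P', Related₂ Γ₁ Γ₂ ψ P P' →
        (PwLe univ Γ₂ P' Q ∧ ∃ U K V, Hole U K V Γ₂ P' Q ∧ PureOn V P'.A Z₂) ∨
          ((Le univ P' Q ∨ Γ₂ = bd Z₂ ∧ PwLe univ Γ₂ P' Q) ∧
            ∃ U, GaugeBy U univ Γ₂ 0 P'.A Z₂) → Related₂ Γ₁ Γ₂ ψ P Q) ∧
      -- parallel sections and the trivial connection
      (Γ₁ = bd Z₁ → Γ₂ = bd Z₂ →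
        (∀ e, Par P e → ∃ e', Par Q e' ∧ ∀ x ∈ Γ₂, e' x = e (ψ x)) ∧
        ((∃ U, GaugeBy U univ Γ₁ 0 P.A Z₁) → ∃ U, GaugeBy U univ Γ₂ 0 Q.A Z₂)) ∧
      -- reduction to the scalar problem
      (∀ (P₀ : Pair Z₁ 1) (Q₀ : Pair Z₂ 1), P₀.g = P.g → P₀.A = 0 → Q₀.g = Q.g → Q₀.A = 0 →
        (∀ e, Par P e → e ≠ 0 → (∃ e', Par Q e' ∧ ∀ x ∈ Γ₂, e' x = e (ψ x)) ∨
          (Γ₁ = bd Z₁ ∧ Γ₂ = bd Z₂) → SameData₂ Γ₁ Γ₂ ψ P₀ Q₀) ∧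
        ((∃ U, GaugeBy U univ Γ₁ 0 P.A Z₁) →
          (∃ U, GaugeBy U univ Γ₂ 0 Q.A Z₂) ∨ (Γ₁ = bd Z₁ ∧ Γ₂ = bd Z₂) →
          SameData₂ Γ₁ Γ₂ ψ P₀ Q₀ ∧
            (Related₂ Γ₁ Γ₂ ψ P Q ↔ Related₂ Γ₁ Γ₂ ψ P₀ Q₀)))) :=
  ⟨fun Z hZ Γ O hO hΓ hne P Q hd =>
    ⟨fun P' hR h => q1' hn hN Z hZ Γ O hO hΓ hne P P' Q hd hR h,
      fun U K V h => hole' hn hN Z hZ Γ O hO hΓ hne P Q hd U K V h,
      fun W hW hp U hU => loc hn hN Z hZ Γ O hO hΓ P Q hd W hW hp U hU,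
      fun e e' he he' h0 heq W _ hp => scal hn Z hZ Γ O hO hΓ P Q hd e e' he he' h0 heq W hp,
      (Vale.Agent.P088.B5.smooth_par hn hN Z hZ Γ O hO hΓ hne P Q hd).1,
      (Vale.Agent.P088.B5.smooth_par hn hN Z hZ Γ O hO hΓ hne P Q hd).2⟩,
    fun Z₁ hZ₁ Z₂ hZ₂ Γ₁ O₁ hO₁ hΓ₁ hne Γ₂ O₂ hO₂ hΓ₂ ψ hψ P Q hd =>
      ⟨fun P' hR h => q1_two hn hN Z₁ hZ₁ Z₂ hZ₂ Γ₁ O₁ hO₁ hΓ₁ hne Γ₂ O₂ hO₂ hΓ₂ ψ hψ P Q hd P' hR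
          h,
        two_man hN Z₁ hZ₁ Z₂ hZ₂ Γ₁ O₁ hO₁ hΓ₁ hne Γ₂ O₂ hO₂ hΓ₂ ψ hψ P Q hd⟩⟩

end Vale.Agent.Results.P088.SmoothPairs
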