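import Vale.Agent.P088.H5.Br

open Manifold Set Vale.Agent.P088.B
open scoped ContDiff

namespace Vale.Agent.Results.P088.TrivialConnection

universe u

/-- The trivial connection is determined among all smooth unitary connections, and so is the metric
among all metrics with `√(det g₁) g₁⁻¹ ≤ √(det g₂) g₂⁻¹`. -/
theorem result {n N : ℕ} [NeZero n] (hn : 3 ≤ n) (hN : 1 ≤ N) {M : Type u} [TopologicalSpace M]
    [ChartedSpace (EuclideanHalfSpace n) M] [IsManifold (𝓡∂ n) ∞ M] [T2Space M] [CompactSpace M]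
    [ConnectedSpace M] (Z : At n M) (hZ : Z = at_ n M) (Γ O : Set M) (hO : IsOpen O)
    (hΓ : Γ = O ∩ bd Z) (hne : Γ.Nonempty) (P Q : Pair Z N) (hdata : SameData Γ P Q) :
    (GaugeEq Γ 0 P.A Z → (Γ = bd Z ∨ P.g = Q.g) → GaugeEq Γ 0 Q.A Z) ∧
    (SigLe P Q → GaugeEq Γ 0 P.A Z → GaugeEq Γ 0 Q.A Z ∧ Q.g = P.g) ∧
    (SigLe P Q → GaugeEq Γ P.A Q.A Z → Q.g = P.g) :=
  theoremM hn hN Z hZ Γ O hO hΓ hne P Q hdata

end Vale.Agent.Results.P088.TrivialConnection
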