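import Vale.Agent.P088.TM.Asm

open Manifold Vale.Agent.P088.B Vale.Agent.P088.B2
open scoped ContDiff

namespace Vale.Agent.Results.P088.TwoManifolds

universe u

/-- Einstein(-Yang-Mills) metrics and Yang-Mills connections are jointly determined, up to gauge,
by the data on one boundary patch; the manifold is determined as well. -/
theorem result {n N : ℕ} [NeZero n] (hn : 3 ≤ n) (hN : 1 ≤ N) :
    -- one manifold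
    (∀ {M : Type u} [TopologicalSpace M] [ChartedSpace (EuclideanHalfSpace n) M]
      [IsManifold (𝓡∂ n) ∞ M] [T2Space M] [CompactSpace M] [ConnectedSpace M]
      (Z : At n M) (_ : Z = at_ n M) (Γ O : Set M) (_ : IsOpen O) (_ : Γ = O ∩ bd Z)
      (_ : Γ.Nonempty) (P Q : Pair Z N) (κ₁ κ₂ α β : ℝ) (_ : EYM κ₁ α β P) (_ : EYM κ₂ α β Q)
      (_ : SameData Γ P Q), Related Γ P Q) ∧
    -- two manifolds which share a boundary patch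
    ∀ {M₁ M₂ : Type u} [TopologicalSpace M₁] [ChartedSpace (EuclideanHalfSpace n) M₁]
      [IsManifold (𝓡∂ n) ∞ M₁] [T2Space M₁] [CompactSpace M₁] [ConnectedSpace M₁]
      [TopologicalSpace M₂] [ChartedSpace (EuclideanHalfSpace n) M₂]
      [IsManifold (𝓡∂ n) ∞ M₂] [T2Space M₂] [CompactSpace M₂] [ConnectedSpace M₂]
      (Z₁ : At n M₁) (_ : Z₁ = at_ n M₁) (Z₂ : At n M₂) (_ : Z₂ = at_ n M₂)
      (Γ₁ O₁ : Set M₁) (_ : IsOpen O₁) (_ : Γ₁ = O₁ ∩ bd Z₁) (_ : Γ₁.Nonempty)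
      (Γ₂ O₂ : Set M₂) (_ : IsOpen O₂) (_ : Γ₂ = O₂ ∩ bd Z₂) (ψ : M₂ → M₁)
      (_ : Iden N Z₁ Z₂ Γ₁ Γ₂ ψ) (P : Pair Z₁ N) (Q : Pair Z₂ N) (κ₁ κ₂ α β : ℝ)
      (_ : EYM κ₁ α β P) (_ : EYM κ₂ α β Q) (_ : SameData₂ Γ₁ Γ₂ ψ P Q),
      κ₁ = κ₂ ∧ Related₂ Γ₁ Γ₂ ψ P Q :=
  ⟨fun Z hZ Γ O hO hΓ hne P Q κ₁ κ₂ α β hP hQ hd =>
    final2 hn hN Z hZ Γ O hO hΓ hne P Q κ₁ κ₂ α β hP hQ hd,
   fun Z₁ hZ₁ Z₂ hZ₂ Γ₁ O₁ hO₁ hΓ₁ hne Γ₂ O₂ hO₂ hΓ₂ ψ hψ P Q κ₁ κ₂ α β hP hQ hd =>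
    final_of Vale.Agent.P088.TM.fMain hn hN Z₁ hZ₁ Z₂ hZ₂ Γ₁ O₁ hO₁ hΓ₁ hne Γ₂ O₂ hO₂ hΓ₂ ψ hψ
      P Q κ₁ κ₂ α β hP hQ hd⟩

end Vale.Agent.Results.P088.TwoManifolds
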